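/-
R335/TH/Main: block TH (see R335/Notes)
Skeleton by helper48 (row 335); keep the statements unchanged, add any helper lemmas you like.
-/
import Crest.Agent.R335.RT.Main
import Crest.Agent.R335.Assemble

set_option autoImplicit false
set_option linter.unusedSectionVars false
set_option linter.unusedVariables false
set_option linter.unusedSimpArgs false

noncomputable section

namespace Crest.Agent.R335

open MeasureTheory Set Filter Topology Metric
open scoped ENNReal


theorem th_local {K : Set X} {p : X → Prop}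
    (h : ∀ x0 ∈ K, ∃ r : ℝ, 0 < r ∧ ∀ᵐ x : X, x ∈ ball x0 r → p x) : ∀ᵐ x : X, x ∈ K → p x := by
  rw [ae_iff]
  refine measure_null_of_locally_null _ fun x hx => ?_
  have hx' : x ∈ K ∧ ¬ p x := Classical.not_imp.1 hx
  obtain ⟨r, hr, ha⟩ := h x hx'.1
  refine ⟨{z | ¬ (z ∈ ball x r → p z)}, ?_, ae_iff.1 ha⟩
  filter_upwards [self_mem_nhdsWithin, mem_nhdsWithin_of_mem_nhds (ball_mem_nhds x hr)] with z hz hzb
  have hz' : z ∈ K ∧ ¬ p z := Classical.not_imp.1 hz
  exact fun h => hz'.2 (h hzb)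

theorem th_norm_nuc {D : ℝ} (hD : 0 ≤ D) : ‖nuc D‖ = D := by
  simp [nuc, abs_of_nonneg hD]

theorem th_aa {D m2 : ℝ} (hD : 1000 ≤ D) (hm : |m2 - 1| ≤ 1 / 100) {x : X} (hx : 6 * D ≤ ‖x‖) :
    0 ≤ aa D m2 x := by
  have h0 := th_norm_nuc (show 0 ≤ D by linarith)
  have h1 : 100 ≤ tp D x := by
    have := norm_sub_norm_le x (nuc D)
    unfold tp; linarith
  have h2 : 100 ≤ tm D x := by
    have := norm_sub_norm_le x (-nuc D)
    rw [norm_neg, sub_neg_eq_add] at this
    unfold tm; linarith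
  have h3 := one_div_le_one_div_of_le (by norm_num) h1
  have h4 := one_div_le_one_div_of_le (by norm_num) h2
  have h5 := (abs_le.1 hm).1
  unfold aa V
  rw [neg_div]
  linarith

theorem th_cs (P b : X → ℝ) (x : X) : 0 ≤ cs P b x ∧ cs P b x ≤ 1 := by
  refine ⟨div_nonneg (le_max_right _ _) (Real.sqrt_nonneg _),
    div_le_one_of_le₀ (max_le ?_ (Real.sqrt_nonneg _)) (Real.sqrt_nonneg _)⟩
  exact Real.le_sqrt_of_sq_le (by nlinarith [sq_nonneg (P x)])

theorem stTheta : StTheta := by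
  intro C
  obtain ⟨Cm, hCm, hmv⟩ := mv_sub 0 1
  set ω : ℝ := volume.real (ball (0 : X) 1) with hω
  have hω0 : 0 ≤ ω := measureReal_nonneg
  refine ⟨Cm * (2 * C * ω + ω + 1), fun c D g u eg eu ob R0 ϱ hϱ hϱ1 => ?_⟩
  have hC : 0 < C := lt_of_lt_of_le one_pos ob.C_ge
  have hD := ob.D_ge
  set g₀ : ℝ := C⁻¹ * Real.exp (-(1001 / 1000) * (R0 + 2 + D)) with hg₀
  have hg0 : 0 < g₀ := by positivity
  set ρ : ℝ := ϱ / 4 with hρ
  have hρ0 : 0 < ρ := by positivity
  have hρ1 : ρ ≤ 1 / 4 := by linarith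
  refine ⟨g₀ * ρ ^ 2, by positivity, fun Λ C1 K l M η m2 de f δ P b ch pr ce hδ hcl => ?_⟩
  have hδ0 : 0 ≤ δ := by linarith [ob.lt]
  have hR0 := pr.R0_ge
  obtain ⟨ly, hpt, hsub⟩ := stRtwo δ P b f.R M ce hδ0 ch.hR (locPos_R ch pr.pos) ch.R_bdd
  have mcs : Measurable (cs P b) :=
    (ce.mb.max measurable_const).div ((ce.mP.pow_const 2).add (ce.mb.pow_const 2)).sqrt
  have lics : ∀ (S : Set X) (t : ℝ), MeasurableSet S → LI S fun x => t * cs P b x := fun S t hS =>
    (LI.of_bdd hS mcs.aestronglyMeasurable fun _ => ⟨1, Eventually.of_forall fun x _ _ => by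
      rw [abs_of_nonneg (th_cs P b x).1]; exact (th_cs P b x).2⟩).const_mul t
  have hy0 : ∀ᵐ x : X, 0 ≤ yy P b f.R x := hpt.mono fun x hx => by linarith [hx.1, ce.P_nn x]
  have li0 : ∀ S : Set X, LI S 0 := fun S => LI.const 0
  have s1 : Sub eX (Hs ∩ Ext R0) (yy P b f.R) (fun x => aS D m2 l M x + (eu - eg) * cs P b x) 0 := by
    have hS := measurableSet_Hs.inter (measurableSet_Ext R0)
    have hE : Hs ∩ Ext R0 ⊆ Ext (6 * D) := fun x hx => by
      have : R0 ≤ ‖x‖ := hx.2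
      change 6 * D ≤ ‖x‖
      linarith
    have hl := (li_aS (show 0 < 6 * D by linarith) D m2 l M).mono hE
    refine ((hsub _ _ (measurableSet_Ext _) (li_aS (by linarith) D m2 l M) ch.xR).mono
      fun x hx => ⟨hx.1, hE hx⟩).change hS ly (hl.add (lics _ _ hS)) (hl.add (lics _ _ hS))
      (li0 _) (li0 _) ?_
    filter_upwards [hy0] with x h1 _
    have h2 := mul_nonneg (th_cs P b x).1 h1
    nlinarith
  have s2 := hsub _ _ MeasurableSet.univ (li_aa D m2) ch.subR
  have collar : ∀ᵐ x : X, x ∈ {x : X | R0 ≤ ‖x‖ ∧ ‖x‖ ≤ R0 + 1 ∧ ϱ ≤ x 2} →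
      yy P b f.R x ≤ Cm * (2 * C * ω + ω + 1) * g x := by
    refine th_local fun x0 hx0 => ⟨ρ, hρ0, ?_⟩
    obtain ⟨m, hm, hharn⟩ := ob.harn x0
    have hball : ∀ x ∈ ball x0 (ρ + ρ), x ∈ Hs ∧ 6 * D ≤ ‖x‖ := by
      intro x hx
      rw [mem_ball, dist_eq_norm] at hx
      have h1 : |(x - x0) 2| ≤ ‖x - x0‖ := PiLp.norm_apply_le (x - x0) 2
      have h2 := norm_sub_norm_le x0 x
      rw [norm_sub_rev] at h2
      have h3 := (abs_le.1 h1).1
      rw [PiLp.sub_apply] at h3
      exact ⟨show 0 < x 2 by linarith [hx0.2.2], by linarith [hx0.1]⟩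
    have s3 : Sub eX (ball x0 (ρ + ρ)) (yy P b f.R) (fun _ => -0) 0 := by
      refine (s2.mono fun x hx => ⟨(hball x hx).1, mem_univ _⟩).change measurableSet_ball ly
        (((li_aa D m2).mono (subset_univ _)).add (lics _ _ measurableSet_ball)) (LI.const _)
        (li0 _) (li0 _) ?_
      filter_upwards [hy0] with x h1 hx
      have h2 := th_aa hD pr.m2_near (hball x hx).2
      have h3 := mul_nonneg (mul_nonneg two_pos.le hδ0) (th_cs P b x).1
      have h4 := mul_nonneg (add_nonneg h2 h3) h1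
      simpa using h4
    filter_upwards [hmv _ x0 ρ ρ hρ0 (by linarith) ly.1 (hy0.mono fun x hx _ => hx) s3, hharn,
      ob.g_lo] with x h1 h2 h3 hx
    have hx8 : ball x ρ ⊆ ball x0 8 := by
      apply ball_subset_ball'
      have := mem_ball.1 hx
      linarith
    have h4 := (h2 (hx8 (mem_ball_self hρ0))).1
    have h5 : g₀ ≤ g x := by
      refine le_trans ?_ h3
      have h6 : tp D x ≤ R0 + 2 + D := by
        have a1 := norm_sub_le x (nuc D)
        rw [th_norm_nuc (by linarith)] at a1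
        have a2 := norm_sub_norm_le x x0
        rw [mem_ball, dist_eq_norm] at hx
        unfold tp
        linarith [hx0.2.1]
      have h7 : Real.exp (-(1001 / 1000) * (R0 + 2 + D)) ≤ Real.exp (-(1001 / 1000) * tp D x) :=
        Real.exp_le_exp.2 (by linarith)
      have h8 := Real.exp_pos (-(1001 / 1000) * tm D x)
      exact mul_le_mul_of_nonneg_left (by linarith) (by positivity)
    have hL2 : MemLp (fun y => P y - √2 * g y) 2 volume := ce.hP.1.sub (ob.hg.1.const_mul _)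
    have hI : Integrable fun y => (P y - √2 * g y) ^ 2 := hL2.integrable_sq
    have hfin : volume (ball x ρ) ≠ ⊤ := measure_ball_lt_top.ne
    have ic : Integrable (fun _ : X => 2 * C * m + g₀) (volume.restrict (ball x ρ)) :=
      integrableOn_const hfin
    have h6 : ∫ y in ball x ρ, yy P b f.R y ≤
        ∫ y in ball x ρ, ((2 * C * m + g₀) + (P y - √2 * g y) ^ 2 / g₀) := by
      refine integral_mono_of_nonneg (ae_restrict_of_ae hy0)
        (ic.add (hI.integrableOn.div_const _)) ?_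
      filter_upwards [ae_restrict_of_ae hpt, ae_restrict_of_ae hharn,
        ae_restrict_mem measurableSet_ball] with y a1 a2 a3
      have a4 := (a2 (hx8 a3)).2
      have a5 : √2 * g y ≤ 2 * g y := by
        have : √2 ≤ 2 := Real.sqrt_le_iff.2 ⟨by norm_num, by norm_num⟩
        exact mul_le_mul_of_nonneg_right this (ob.g_nn y)
      have a6 : P y - √2 * g y ≤ g₀ + (P y - √2 * g y) ^ 2 / g₀ := by
        rw [← sub_le_iff_le_add', le_div_iff₀ hg0]
        nlinarith [sq_nonneg (P y - √2 * g y - g₀)]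
      linarith [a1.2.1]
    have h7 : volume.real (ball x ρ) = ρ ^ 3 * ω := by
      rw [hω, Measure.real, Measure.real, Measure.addHaar_ball_of_pos _ _ hρ0, ENNReal.toReal_mul,
        ENNReal.toReal_ofReal (by positivity), finrank_euclideanSpace_fin]
    have h8 : ∫ y in ball x ρ, (P y - √2 * g y) ^ 2 ≤ (g₀ * ρ ^ 2) ^ 2 :=
      (setIntegral_le_integral hI (Eventually.of_forall fun y => sq_nonneg _)).trans hcl
    rw [integral_add ic (hI.integrableOn.div_const _), setIntegral_const, h7, integral_div,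
      smul_eq_mul] at h6
    have h9 : (∫ y in ball x ρ, (P y - √2 * g y) ^ 2) / g₀ ≤ ρ ^ 3 * g₀ := by
      rw [div_le_iff₀ hg0]
      refine h8.trans ?_
      have : 0 ≤ g₀ ^ 2 * ρ ^ 3 * (1 - ρ) := mul_nonneg (by positivity) (by linarith)
      nlinarith
    have h10 : ∫ y in ball x ρ, yy P b f.R y ≤ ρ ^ 3 * ((2 * C * ω + ω + 1) * g x) := by
      have b1 : ρ ^ 3 * ω * (2 * C * m + g₀) ≤ ρ ^ 3 * ω * (2 * C * g x + g x) := by gcongr
      have b2 : ρ ^ 3 * g₀ ≤ ρ ^ 3 * g x := by gcongr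
      linarith
    refine (h1 hx).trans ?_
    calc Cm / ρ ^ 3 * ∫ y in ball x ρ, yy P b f.R y
        ≤ Cm / ρ ^ 3 * (ρ ^ 3 * ((2 * C * ω + ω + 1) * g x)) := by gcongr
      _ = _ := by field_simp
  intro t ε ht hε
  obtain ⟨r1, hr1⟩ := pr.decay _ _ ly mcs (th_cs P b)
    (by filter_upwards [hy0, hpt] with x h1 h2 using ⟨h1, h2.2.1.trans h2.2.2.1⟩) s1
    (hpt.mono fun x hx h1 h2 => hx.2.2.2 h2 h1)
    (collar.mono fun x hx h1 h2 h3 => hx ⟨h1, h2, h3⟩) t (ε / 2) ht (half_pos hε)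
  refine ⟨r1, ?_⟩
  filter_upwards [hr1, hpt] with x h1 h2 h3 h4
  linarith [h1 h3 h4, h2.1]

end Crest.Agent.R335
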